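import Vale.Agent.Lib.P262S.PL

/-! Prékopa–Leindler with a general weight on `Fin n → ℝ` (adapted from the midpoint versions in
`P074/PL` and `P262S/PL`). -/

open MeasureTheory Set Filter Topology
open scoped ENNReal

namespace Vale.Agent.Lib.P245.PLG

open Vale.Agent.Lib.P262S.PLx.PLaux

lemma vol_scale {c : ℝ} (hc : 0 < c) (A : Set ℝ) (d : ℝ) :
    volume {x : ℝ | c⁻¹ * x + d ∈ A} = ENNReal.ofReal c * volume A := by
  have h1 : {x : ℝ | c⁻¹ * x + d ∈ A} =
      (fun x : ℝ => c⁻¹ * x) ⁻¹' ((fun y : ℝ => y + d) ⁻¹' A) := by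
    ext x; simp
  rw [h1, Real.volume_preimage_mul_left (by positivity), measure_preimage_add_right]
  simp [abs_of_pos hc]

lemma bm_compact {τ : ℝ} (h0 : 0 < τ) (h1 : τ < 1) {A B S : Set ℝ} (hA : IsCompact A)
    (hB : IsCompact B) (hAne : A.Nonempty) (hBne : B.Nonempty)
    (h : ∀ a ∈ A, ∀ b ∈ B, τ * a + (1 - τ) * b ∈ S) :
    ENNReal.ofReal τ * volume A + ENNReal.ofReal (1 - τ) * volume B ≤ volume S := by
  have h2 : 0 < 1 - τ := by linarith
  have h2' : (1 - τ) ≠ 0 := h2.ne'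
  have h0' : τ ≠ 0 := h0.ne'
  set α := sSup A
  set β := sInf B
  have hα : α ∈ A := hA.sSup_mem hAne
  have hβ : β ∈ B := hB.sInf_mem hBne
  set X := {x : ℝ | τ⁻¹ * x + (-((1 - τ) * β / τ)) ∈ A} with hX
  set Y := {x : ℝ | (1 - τ)⁻¹ * x + (-(τ * α / (1 - τ))) ∈ B} with hY
  have hXS : X ⊆ S := by
    intro x hx
    have := h _ hx β hβ
    convert this using 1
    field_simp
    ring
  have hYS : Y ⊆ S := by
    intro x hx
    have := h α hα _ hx
    convert this using 1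
    field_simp
    ring
  have hYm : MeasurableSet Y := by
    have : Y = (fun x : ℝ => (1 - τ)⁻¹ * x + (-(τ * α / (1 - τ)))) ⁻¹' B := rfl
    rw [this]
    exact hB.measurableSet.preimage (by fun_prop)
  have hinter : X ∩ Y ⊆ {τ * α + (1 - τ) * β} := by
    rintro x ⟨hx, hy⟩
    have h3 : τ⁻¹ * x + (-((1 - τ) * β / τ)) ≤ α := le_csSup hA.bddAbove hx
    have h4 : β ≤ (1 - τ)⁻¹ * x + (-(τ * α / (1 - τ))) := csInf_le hB.bddBelow hy
    simp only [mem_singleton_iff]
    have h5 : x ≤ τ * α + (1 - τ) * β := by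
      have := mul_le_mul_of_nonneg_left h3 h0.le
      have e : τ * (τ⁻¹ * x + (-((1 - τ) * β / τ))) = x - (1 - τ) * β := by
        field_simp
        ring
      rw [e] at this
      linarith
    have h6 : τ * α + (1 - τ) * β ≤ x := by
      have := mul_le_mul_of_nonneg_left h4 h2.le
      have e : (1 - τ) * ((1 - τ)⁻¹ * x + (-(τ * α / (1 - τ)))) = x - τ * α := by
        field_simp
        ring
      rw [e] at this
      linarith
    linarith
  have h00 : volume (X ∩ Y) = 0 := measure_mono_null hinter (measure_singleton _)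
  have hsum := measure_union_add_inter (μ := volume) X hYm
  rw [h00, add_zero] at hsum
  have hle : volume X + volume Y ≤ volume S := by
    rw [← hsum]
    exact measure_mono (union_subset hXS hYS)
  have vX : volume X = ENNReal.ofReal τ * volume A := vol_scale h0 A _
  have vY : volume Y = ENNReal.ofReal (1 - τ) * volume B := vol_scale h2 B _
  rw [vX, vY] at hle
  exact hle

lemma vol_eq_iSup_compact {S : Set ℝ} (m : MeasurableSet S) :
    volume S = ⨆ K : {K : Set ℝ // K ⊆ S ∧ IsCompact K}, volume K.1 := by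
  rw [m.measure_eq_iSup_isCompact]
  apply le_antisymm
  · refine iSup_le fun K => iSup_le fun h1 => iSup_le fun h2 => ?_
    exact le_iSup (fun K : {K : Set ℝ // K ⊆ S ∧ IsCompact K} => volume K.1) ⟨K, h1, h2⟩
  · exact iSup_le fun K => le_iSup_of_le K.1 (le_iSup_of_le K.2.1 (le_iSup_of_le K.2.2 le_rfl))

lemma bm1 {τ : ℝ} (h0 : 0 < τ) (h1 : τ < 1) {A B S : Set ℝ} (hA : MeasurableSet A)
    (hB : MeasurableSet B) (hAne : A.Nonempty) (hBne : B.Nonempty)
    (h : ∀ a ∈ A, ∀ b ∈ B, τ * a + (1 - τ) * b ∈ S) :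
    ENNReal.ofReal τ * volume A + ENNReal.ofReal (1 - τ) * volume B ≤ volume S := by
  obtain ⟨a0, ha0⟩ := hAne
  obtain ⟨b0, hb0⟩ := hBne
  have key : ∀ K L : Set ℝ, K ⊆ A → L ⊆ B → IsCompact K → IsCompact L →
      ENNReal.ofReal τ * volume K + ENNReal.ofReal (1 - τ) * volume L ≤ volume S := by
    intro K L hK hL hKc hLc
    have h3 := bm_compact h0 h1 (A := insert a0 K) (B := insert b0 L) (S := S)
      (hKc.insert a0) (hLc.insert b0) ⟨a0, mem_insert _ _⟩ ⟨b0, mem_insert _ _⟩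
      (fun a ha b hb => h a (insert_subset ha0 hK ha) b (insert_subset hb0 hL hb))
    refine le_trans ?_ h3
    gcongr <;> exact subset_insert _ _
  rw [vol_eq_iSup_compact hA, vol_eq_iSup_compact hB, ENNReal.mul_iSup, ENNReal.mul_iSup]
  have : Nonempty {K : Set ℝ // K ⊆ A ∧ IsCompact K} := ⟨⟨∅, empty_subset _, isCompact_empty⟩⟩
  have : Nonempty {K : Set ℝ // K ⊆ B ∧ IsCompact K} := ⟨⟨∅, empty_subset _, isCompact_empty⟩⟩
  exact ENNReal.iSup_add_iSup_le (fun K₁ K₂ => key _ _ K₁.2.1 K₂.2.1 K₁.2.2 K₂.2.2)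

lemma amgm {τ : ℝ} (h0 : 0 < τ) (h1 : τ < 1) (x y : ℝ≥0∞) :
    x ^ τ * y ^ (1 - τ) ≤ ENNReal.ofReal τ * x + ENNReal.ofReal (1 - τ) * y := by
  have h2 : 0 < 1 - τ := by linarith
  by_cases hx : x = ⊤
  · subst hx
    by_cases hy0 : y = 0
    · simp [hy0, ENNReal.zero_rpow_of_pos h2]
    · have : ENNReal.ofReal τ * ⊤ = ⊤ := ENNReal.mul_top (by simpa using h0)
      rw [this]
      simp
  by_cases hy : y = ⊤
  · subst hy
    by_cases hx0 : x = 0
    · simp [hx0, ENNReal.zero_rpow_of_pos h0]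
    · have : ENNReal.ofReal (1 - τ) * ⊤ = ⊤ := ENNReal.mul_top (by simpa using h2)
      rw [this]
      simp
  have hx1 := ENNReal.toReal_nonneg (a := x)
  have hy1 := ENNReal.toReal_nonneg (a := y)
  have key := Real.geom_mean_le_arith_mean2_weighted h0.le h2.le hx1 hy1 (by ring)
  rw [← ENNReal.ofReal_toReal hx, ← ENNReal.ofReal_toReal hy,
    ENNReal.ofReal_rpow_of_nonneg hx1 h0.le, ENNReal.ofReal_rpow_of_nonneg hy1 h2.le,
    ← ENNReal.ofReal_mul (Real.rpow_nonneg hx1 _), ← ENNReal.ofReal_mul h0.le,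
    ← ENNReal.ofReal_mul h2.le, ← ENNReal.ofReal_add (by positivity) (by positivity)]
  exact ENNReal.ofReal_le_ofReal key

lemma pl1_bdd {τ : ℝ} (h0 : 0 < τ) (h1 : τ < 1) {F G H : ℝ → ℝ≥0∞} (hF : Measurable F)
    (hG : Measurable G) (hH : Measurable H)
    (Hle : ∀ x y, F x ^ τ * G y ^ (1 - τ) ≤ H (τ * x + (1 - τ) * y))
    {a b : ℝ≥0∞} (haS : a = ⨆ x, F x) (hbS : b = ⨆ x, G x)
    (ha0 : a ≠ 0) (hat : a ≠ ⊤) (hb0 : b ≠ 0) (hbt : b ≠ ⊤) :
    (∫⁻ x, F x) ^ τ * (∫⁻ x, G x) ^ (1 - τ) ≤ ∫⁻ x, H x := by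
  have h2 : 0 < 1 - τ := by linarith
  set s : ℝ≥0∞ := a ^ τ * b ^ (1 - τ) with hs
  have hs0 : s ≠ 0 := by
    refine mul_ne_zero ?_ ?_
    · intro h
      rw [ENNReal.rpow_eq_zero_iff] at h
      rcases h with ⟨h, _⟩ | ⟨h, _⟩
      · exact ha0 h
      · exact hat h
    · intro h
      rw [ENNReal.rpow_eq_zero_iff] at h
      rcases h with ⟨h, _⟩ | ⟨h, _⟩
      · exact hb0 h
      · exact hbt h
  have hst : s ≠ ⊤ := ENNReal.mul_ne_top (ENNReal.rpow_ne_top_of_nonneg h0.le hat)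
    (ENNReal.rpow_ne_top_of_nonneg h2.le hbt)
  have hFle : ∀ x, F x ≤ a := fun x => haS ▸ le_iSup F x
  have hGle : ∀ x, G x ≤ b := fun x => hbS ▸ le_iSup G x
  set u : ℝ → ℝ≥0∞ := fun x => F x / a with hu
  set v : ℝ → ℝ≥0∞ := fun x => G x / b with hv
  set w : ℝ → ℝ≥0∞ := fun x => H x / s with hw
  have hum : Measurable u := hF.div_const a
  have hvm : Measurable v := hG.div_const b
  have hwm : Measurable w := hH.div_const s
  have hu1 : ∀ x, u x ≤ 1 := fun x => ENNReal.div_le_of_le_mul (by simpa using hFle x)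
  have hv1 : ∀ x, v x ≤ 1 := fun x => ENNReal.div_le_of_le_mul (by simpa using hGle x)
  have hFu : (∫⁻ x, F x) = a * lev u := by
    rw [lev_eq u hum hu1, ← lintegral_const_mul _ hum]
    refine lintegral_congr fun x => ?_
    exact (ENNReal.mul_div_cancel ha0 hat).symm
  have hGv : (∫⁻ x, G x) = b * lev v := by
    rw [lev_eq v hvm hv1, ← lintegral_const_mul _ hvm]
    refine lintegral_congr fun x => ?_
    exact (ENNReal.mul_div_cancel hb0 hbt).symm
  have hHw : s * lev w ≤ ∫⁻ x, H x := by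
    calc s * lev w ≤ s * ∫⁻ x, w x := by gcongr; exact lev_le w hwm
      _ = ∫⁻ x, s * w x := (lintegral_const_mul _ hwm).symm
      _ = ∫⁻ x, H x := lintegral_congr fun x => ENNReal.mul_div_cancel hs0 hst
  have hmu : Measurable (fun t : ℝ => volume {x : ℝ | ENNReal.ofReal t < u x}) :=
    measurable_measure_prodMk_left (measurable_level u hum)
  have hmv : Measurable (fun t : ℝ => volume {x : ℝ | ENNReal.ofReal t < v x}) :=
    measurable_measure_prodMk_left (measurable_level v hvm)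
  have hkey : ENNReal.ofReal τ * lev u + ENNReal.ofReal (1 - τ) * lev v ≤ lev w := by
    unfold lev
    rw [← lintegral_const_mul _ hmu, ← lintegral_const_mul _ hmv,
      ← lintegral_add_left (hmu.const_mul _)]
    refine setLIntegral_mono' measurableSet_Ioo fun t ht => ?_
    have ht0 : 0 < t := ht.1
    have ht1 : t < 1 := ht.2
    have htlt : ENNReal.ofReal t < 1 := by
      rw [← ENNReal.ofReal_one]
      exact (ENNReal.ofReal_lt_ofReal_iff (by norm_num)).2 ht1
    have htop : ENNReal.ofReal t ≠ ⊤ := ENNReal.ofReal_ne_top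
    have htne : ENNReal.ofReal t ≠ 0 := by
      simpa using ht0
    have hA : ({x | ENNReal.ofReal t < u x}).Nonempty := by
      have : ENNReal.ofReal t * a < ⨆ x, F x := by
        rw [← haS]
        calc ENNReal.ofReal t * a < 1 * a :=
              (ENNReal.mul_lt_mul_iff_left ha0 hat).2 htlt
          _ = a := one_mul a
      obtain ⟨x, hx⟩ := lt_iSup_iff.1 this
      exact ⟨x, (ENNReal.lt_div_iff_mul_lt (Or.inl ha0) (Or.inl hat)).2 hx⟩
    have hB : ({x | ENNReal.ofReal t < v x}).Nonempty := by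
      have : ENNReal.ofReal t * b < ⨆ x, G x := by
        rw [← hbS]
        calc ENNReal.ofReal t * b < 1 * b :=
              (ENNReal.mul_lt_mul_iff_left hb0 hbt).2 htlt
          _ = b := one_mul b
      obtain ⟨x, hx⟩ := lt_iSup_iff.1 this
      exact ⟨x, (ENNReal.lt_div_iff_mul_lt (Or.inl hb0) (Or.inl hbt)).2 hx⟩
    refine bm1 h0 h1 (measurableSet_lt measurable_const hum)
      (measurableSet_lt measurable_const hvm) hA hB ?_
    intro x hx y hy
    have hx' : ENNReal.ofReal t * a < F x :=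
      (ENNReal.lt_div_iff_mul_lt (Or.inl ha0) (Or.inl hat)).1 hx
    have hy' : ENNReal.ofReal t * b < G y :=
      (ENNReal.lt_div_iff_mul_lt (Or.inl hb0) (Or.inl hbt)).1 hy
    have hprod : ENNReal.ofReal t * s < F x ^ τ * G y ^ (1 - τ) := by
      have e1 : (ENNReal.ofReal t) ^ τ * (ENNReal.ofReal t) ^ (1 - τ) = ENNReal.ofReal t := by
        rw [← ENNReal.rpow_add _ _ htne htop]
        simp
      calc ENNReal.ofReal t * s
          = ((ENNReal.ofReal t) ^ τ * (ENNReal.ofReal t) ^ (1 - τ)) * s := by rw [e1]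
        _ = (ENNReal.ofReal t * a) ^ τ * (ENNReal.ofReal t * b) ^ (1 - τ) := by
              rw [ENNReal.mul_rpow_of_nonneg _ _ h0.le, ENNReal.mul_rpow_of_nonneg _ _ h2.le, hs]
              ring
        _ < _ := ENNReal.mul_lt_mul (ENNReal.rpow_lt_rpow hx' h0) (ENNReal.rpow_lt_rpow hy' h2)
    exact (ENNReal.lt_div_iff_mul_lt (Or.inl hs0) (Or.inl hst)).2 (lt_of_lt_of_le hprod (Hle x y))
  have hamgm := amgm h0 h1 (lev u) (lev v)
  calc (∫⁻ x, F x) ^ τ * (∫⁻ x, G x) ^ (1 - τ)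
      = s * ((lev u) ^ τ * (lev v) ^ (1 - τ)) := by
        rw [hFu, hGv, ENNReal.mul_rpow_of_nonneg _ _ h0.le, ENNReal.mul_rpow_of_nonneg _ _ h2.le, hs]
        ring
    _ ≤ s * lev w := by
        gcongr
        exact hamgm.trans hkey
    _ ≤ ∫⁻ x, H x := hHw

lemma pl1 {τ : ℝ} (h0 : 0 < τ) (h1 : τ < 1) {F G H : ℝ → ℝ≥0∞} (hF : Measurable F)
    (hG : Measurable G) (hH : Measurable H)
    (Hle : ∀ x y, F x ^ τ * G y ^ (1 - τ) ≤ H (τ * x + (1 - τ) * y)) :
    (∫⁻ x, F x) ^ τ * (∫⁻ x, G x) ^ (1 - τ) ≤ ∫⁻ x, H x := by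
  have h2 : 0 < 1 - τ := by linarith
  set Fn : ℕ → ℝ → ℝ≥0∞ := fun n x => min (F x) n with hFn
  set Gn : ℕ → ℝ → ℝ≥0∞ := fun n x => min (G x) n with hGn
  have hFm : ∀ n, Measurable (Fn n) := fun n => hF.min measurable_const
  have hGm : ∀ n, Measurable (Gn n) := fun n => hG.min measurable_const
  have hFmono : Monotone Fn := fun i j hij x =>
    min_le_min_left _ (by exact_mod_cast hij)
  have hGmono : Monotone Gn := fun i j hij x =>
    min_le_min_left _ (by exact_mod_cast hij)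
  have hsupF : ∀ x, (⨆ n, Fn n x) = F x := by
    intro x
    refine le_antisymm (iSup_le fun n => min_le_left _ _) (le_of_forall_lt fun c hc => ?_)
    obtain ⟨n, hn⟩ := ENNReal.exists_nat_gt (ne_top_of_lt hc)
    exact lt_of_lt_of_le (lt_min hc hn) (le_iSup (fun n => Fn n x) n)
  have hsupG : ∀ x, (⨆ n, Gn n x) = G x := by
    intro x
    refine le_antisymm (iSup_le fun n => min_le_left _ _) (le_of_forall_lt fun c hc => ?_)
    obtain ⟨n, hn⟩ := ENNReal.exists_nat_gt (ne_top_of_lt hc)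
    exact lt_of_lt_of_le (lt_min hc hn) (le_iSup (fun n => Gn n x) n)
  have hF1 : (∫⁻ x, F x) = ⨆ n, ∫⁻ x, Fn n x := by
    rw [← lintegral_iSup hFm hFmono]
    exact lintegral_congr fun x => by simp [hsupF]
  have hG1 : (∫⁻ x, G x) = ⨆ n, ∫⁻ x, Gn n x := by
    rw [← lintegral_iSup hGm hGmono]
    exact lintegral_congr fun x => by simp [hsupG]
  have e1 : (⨆ n, ∫⁻ x, Fn n x) ^ τ = ⨆ n, (∫⁻ x, Fn n x) ^ τ :=
    (ENNReal.orderIsoRpow τ h0).map_iSup _
  have e2 : (⨆ n, ∫⁻ x, Gn n x) ^ (1 - τ) = ⨆ n, (∫⁻ x, Gn n x) ^ (1 - τ) :=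
    (ENNReal.orderIsoRpow (1 - τ) h2).map_iSup _
  rw [hF1, hG1, e1, e2, ENNReal.iSup_mul]
  refine iSup_le fun i => ?_
  rw [ENNReal.mul_iSup]
  refine iSup_le fun j => ?_
  have Hle' : ∀ x y, Fn i x ^ τ * Gn j y ^ (1 - τ) ≤ H (τ * x + (1 - τ) * y) := fun x y =>
    le_trans (mul_le_mul' (ENNReal.rpow_le_rpow (min_le_left _ _) h0.le)
      (ENNReal.rpow_le_rpow (min_le_left _ _) h2.le)) (Hle x y)
  by_cases ha0 : (⨆ x, Fn i x) = 0
  · have : ∀ x, Fn i x = 0 := fun x => by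
      have := le_iSup (Fn i) x
      rw [ha0] at this
      exact le_antisymm this bot_le
    simp [this, ENNReal.zero_rpow_of_pos h0]
  by_cases hb0 : (⨆ x, Gn j x) = 0
  · have : ∀ x, Gn j x = 0 := fun x => by
      have := le_iSup (Gn j) x
      rw [hb0] at this
      exact le_antisymm this bot_le
    simp [this, ENNReal.zero_rpow_of_pos h2]
  have hat : (⨆ x, Fn i x) ≠ ⊤ := by
    refine ne_top_of_le_ne_top (ENNReal.natCast_ne_top i) (iSup_le fun x => min_le_right _ _)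
  have hbt : (⨆ x, Gn j x) ≠ ⊤ := by
    refine ne_top_of_le_ne_top (ENNReal.natCast_ne_top j) (iSup_le fun x => min_le_right _ _)
  exact pl1_bdd h0 h1 (hFm i) (hGm j) hH Hle' rfl rfl ha0 hat hb0 hbt

/-- Prékopa–Leindler with a general weight on `Fin n → ℝ`. -/
theorem pl_pi {τ : ℝ} (h0 : 0 < τ) (h1 : τ < 1) (n : ℕ) :
    ∀ {f g h : (Fin n → ℝ) → ℝ≥0∞}, Measurable f → Measurable g → Measurable h →
    (∀ x y, f x ^ τ * g y ^ (1 - τ) ≤ h (τ • x + (1 - τ) • y)) →
    (∫⁻ x, f x) ^ τ * (∫⁻ x, g x) ^ (1 - τ) ≤ ∫⁻ x, h x := by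
  induction n with
  | zero =>
    intro f g h hf hg hh H
    have hone : (volume : Measure (Fin 0 → ℝ)) univ = 1 := by
      simp [volume_pi]
    simp only [lintegral_unique, hone, mul_one]
    have key : ∀ a b c : Fin 0 → ℝ, f a ^ τ * g b ^ (1 - τ) ≤ h c := by
      intro a b c
      have h3 := H a b
      have e : τ • a + (1 - τ) • b = c := Subsingleton.elim _ _
      rw [e] at h3
      exact h3
    exact key _ _ _
  | succ n ih =>
    intro f g h hf hg hh H
    have hmp := (volume_preserving_piFinSuccAbove (fun _ : Fin (n + 1) => ℝ) 0).symm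
    set e := (MeasurableEquiv.piFinSuccAbove (fun _ : Fin (n + 1) => ℝ) 0).symm with he
    have hint : ∀ {u : (Fin (n + 1) → ℝ) → ℝ≥0∞}, Measurable u →
        (∫⁻ x, u x) = ∫⁻ t : ℝ, ∫⁻ x : Fin n → ℝ, u (e (t, x)) := by
      intro u hu
      rw [← hmp.lintegral_comp hu, Measure.volume_eq_prod,
        lintegral_prod (fun z => u (e z)) (hu.comp e.measurable).aemeasurable]
    have hmeas : ∀ {u : (Fin (n + 1) → ℝ) → ℝ≥0∞}, Measurable u →
        Measurable (fun t : ℝ => ∫⁻ x : Fin n → ℝ, u (e (t, x))) := by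
      intro u hu
      exact (hu.comp e.measurable).lintegral_prod_right'
    have hsec : ∀ {u : (Fin (n + 1) → ℝ) → ℝ≥0∞}, Measurable u → ∀ t : ℝ,
        Measurable (fun x : Fin n → ℝ => u (e (t, x))) := by
      intro u hu t
      exact hu.comp (e.measurable.comp (measurable_const.prodMk measurable_id))
    rw [hint hf, hint hg, hint hh]
    refine pl1 h0 h1 (hmeas hf) (hmeas hg) (hmeas hh) ?_
    intro t t'
    refine ih (hsec hf t) (hsec hg t') (hsec hh (τ * t + (1 - τ) * t')) ?_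
    intro x y
    have hmid : e (τ * t + (1 - τ) * t', τ • x + (1 - τ) • y) =
        τ • e (t, x) + (1 - τ) • e (t', y) := by
      ext i
      refine Fin.cases ?_ (fun j => ?_) i
      · simp [he, MeasurableEquiv.piFinSuccAbove]
      · simp [he, MeasurableEquiv.piFinSuccAbove]
    rw [hmid]
    exact H _ _

/-- Prékopa–Leindler, Bochner form. -/
theorem pl_real {τ : ℝ} (h0 : 0 < τ) (h1 : τ < 1) {n : ℕ} {f g h : (Fin n → ℝ) → ℝ}
    (hf : Measurable f) (hg : Measurable g) (hh : Measurable h)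
    (hf0 : ∀ x, 0 ≤ f x) (hg0 : ∀ x, 0 ≤ g x) (hh0 : ∀ x, 0 ≤ h x)
    (hfi : Integrable f) (hgi : Integrable g) (hhi : Integrable h)
    (H : ∀ x y, f x ^ τ * g y ^ (1 - τ) ≤ h (τ • x + (1 - τ) • y)) :
    (∫ x, f x) ^ τ * (∫ x, g x) ^ (1 - τ) ≤ ∫ x, h x := by
  have h2 : 0 < 1 - τ := by linarith
  have key := pl_pi h0 h1 n (f := fun x => ENNReal.ofReal (f x))
    (g := fun x => ENNReal.ofReal (g x)) (h := fun x => ENNReal.ofReal (h x))
    hf.ennreal_ofReal hg.ennreal_ofReal hh.ennreal_ofReal (by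
      intro x y
      rw [ENNReal.ofReal_rpow_of_nonneg (hf0 x) h0.le, ENNReal.ofReal_rpow_of_nonneg (hg0 y) h2.le,
        ← ENNReal.ofReal_mul (Real.rpow_nonneg (hf0 x) _)]
      exact ENNReal.ofReal_le_ofReal (H x y))
  rw [← ofReal_integral_eq_lintegral_ofReal hfi (Eventually.of_forall hf0),
    ← ofReal_integral_eq_lintegral_ofReal hgi (Eventually.of_forall hg0),
    ← ofReal_integral_eq_lintegral_ofReal hhi (Eventually.of_forall hh0),
    ENNReal.ofReal_rpow_of_nonneg (integral_nonneg hf0) h0.le,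
    ENNReal.ofReal_rpow_of_nonneg (integral_nonneg hg0) h2.le,
    ← ENNReal.ofReal_mul (Real.rpow_nonneg (integral_nonneg hf0) _)] at key
  exact (ENNReal.ofReal_le_ofReal_iff (integral_nonneg hh0)).1 key

end Vale.Agent.Lib.P245.PLG
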