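import Vale.Agent.Lib.P245.Defs
import Vale.Agent.Lib.P245.PLG

/-! The Bakry-Emery log-Sobolev inequality for Gaussian tilts of log-concave densities, by the
Bobkov-Ledoux argument from Prekopa-Leindler and the Hopf-Lax infimum convolution. -/

open MeasureTheory ProbabilityTheory Real Filter Topology
open scoped BigOperators ContDiff

noncomputable section

namespace Vale.Agent.Lib.P245

variable {n : ℕ}

lemma be_nsq_nonneg (x : X n) : 0 ≤ nsq x := Finset.sum_nonneg (fun _ _ => sq_nonneg _)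

lemma be_norm_le (h : X n) : ‖h‖ ≤ sqrt (nsq h) := by
  refine (pi_norm_le_iff_of_nonneg (sqrt_nonneg _)).2 (fun i => ?_)
  rw [Real.norm_eq_abs]
  apply Real.abs_le_sqrt
  exact Finset.single_le_sum (f := fun i => h i ^ 2) (fun _ _ => sq_nonneg _) (Finset.mem_univ i)

lemma be_clm_apply (L : X n →L[ℝ] ℝ) (h : X n) : L h = ∑ i, h i * L (Pi.single i 1) := by
  have e : h = ∑ i, h i • (Pi.single i (1 : ℝ) : X n) := by
    ext j
    simp [Finset.sum_apply, Pi.single_apply]
  conv_lhs => rw [e]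
  simp [map_sum, map_smul]

lemma be_clm_le (L : X n →L[ℝ] ℝ) (h : X n) :
    |L h| ≤ sqrt (∑ i, (L (Pi.single i 1)) ^ 2) * sqrt (nsq h) := by
  rw [be_clm_apply, mul_comm, ← Real.sqrt_mul (be_nsq_nonneg h)]
  apply Real.abs_le_sqrt
  exact Finset.sum_mul_sq_le_sq_mul_sq Finset.univ (fun i => h i) (fun i => L (Pi.single i 1))

lemma be_gradSq_nonneg (f : X n → ℝ) (x : X n) : 0 ≤ gradSq f x :=
  Finset.sum_nonneg (fun _ _ => sq_nonneg _)

lemma be_gs_continuous {g : X n → ℝ} (hg : ContDiff ℝ ∞ g) : Continuous (gradSq g) := by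
  unfold gradSq
  refine continuous_finsetSum _ (fun i _ => ?_)
  have h1 : Continuous (fderiv ℝ g) := hg.continuous_fderiv (by simp)
  have h2 : Continuous (fun x => fderiv ℝ g x (Pi.single i 1)) :=
    h1.clm_apply continuous_const
  exact h2.pow 2

lemma be_lip {f : X n → ℝ} (hd : Differentiable ℝ f) {L : ℝ} (hL : 0 ≤ L)
    (hb : ∀ x, gradSq f x ≤ L ^ 2) (x h : X n) :
    |f (x + h) - f x| ≤ L * sqrt (nsq h) := by
  have hψ : ∀ τ ∈ Set.Icc (0 : ℝ) 1, HasDerivWithinAt (fun τ : ℝ => f (x + τ • h))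
      (fderiv ℝ f (x + τ • h) h) (Set.Icc 0 1) τ := by
    intro τ _
    have h1 : HasDerivAt (fun τ : ℝ => x + τ • h) h τ := by
      simpa using ((hasDerivAt_id τ).smul_const h).const_add x
    exact ((hd _).hasFDerivAt.comp_hasDerivAt τ h1).hasDerivWithinAt
  have hbd : ∀ τ ∈ Set.Ico (0 : ℝ) 1, ‖fderiv ℝ f (x + τ • h) h‖ ≤ L * sqrt (nsq h) := by
    intro τ _
    rw [Real.norm_eq_abs]
    refine (be_clm_le _ h).trans ?_
    refine mul_le_mul_of_nonneg_right ?_ (sqrt_nonneg _)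
    exact Real.sqrt_le_iff.2 ⟨hL, hb _⟩
  have := norm_image_sub_le_of_norm_deriv_le_segment_01' hψ hbd
  simpa using this

lemma be_amgm (A w : ℝ) {r : ℝ} (hr : 0 < r) : A * w ≤ w ^ 2 / (2 * r) + r * A ^ 2 / 2 := by
  have h1 : 0 ≤ (w - r * A) ^ 2 / (2 * r) := by positivity
  have e : (w - r * A) ^ 2 / (2 * r) = w ^ 2 / (2 * r) + r * A ^ 2 / 2 - A * w := by
    field_simp
    ring
  linarith

/-- The Hopf-Lax infimum convolution. -/
def hlQ (f : X n → ℝ) (r : ℝ) (x : X n) : ℝ := ⨅ h : X n, (f (x + h) + nsq h / (2 * r))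

section HL

variable {f : X n → ℝ} {L : ℝ}

lemma hl_term_lb (hlip : ∀ x h, |f (x + h) - f x| ≤ L * sqrt (nsq h)) {r : ℝ} (hr : 0 < r)
    (x h : X n) : f x - r * L ^ 2 / 2 ≤ f (x + h) + nsq h / (2 * r) := by
  have h1 := (abs_le.1 (hlip x h)).1
  have h2 := be_amgm L (sqrt (nsq h)) hr
  rw [Real.sq_sqrt (be_nsq_nonneg h)] at h2
  linarith

lemma hl_bdd (hlip : ∀ x h, |f (x + h) - f x| ≤ L * sqrt (nsq h)) {r : ℝ} (hr : 0 < r) (x : X n) :
    BddBelow (Set.range fun h : X n => f (x + h) + nsq h / (2 * r)) :=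
  ⟨f x - r * L ^ 2 / 2, by
    rintro _ ⟨h, rfl⟩
    exact hl_term_lb hlip hr x h⟩

lemma hl_le (hlip : ∀ x h, |f (x + h) - f x| ≤ L * sqrt (nsq h)) {r : ℝ} (hr : 0 < r) (x h : X n) :
    hlQ f r x ≤ f (x + h) + nsq h / (2 * r) :=
  ciInf_le (hl_bdd hlip hr x) h

lemma hl_ge (hlip : ∀ x h, |f (x + h) - f x| ≤ L * sqrt (nsq h)) {r : ℝ} (hr : 0 < r) (x : X n) :
    f x - r * L ^ 2 / 2 ≤ hlQ f r x :=
  le_ciInf (fun h => hl_term_lb hlip hr x h)

lemma hl_le_self (hlip : ∀ x h, |f (x + h) - f x| ≤ L * sqrt (nsq h)) {r : ℝ} (hr : 0 < r)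
    (x : X n) : hlQ f r x ≤ f x := by
  have := hl_le hlip hr x 0
  simpa [nsq] using this

lemma hl_meas (hc : Continuous f) (hlip : ∀ x h, |f (x + h) - f x| ≤ L * sqrt (nsq h)) {r : ℝ}
    (hr : 0 < r) : Measurable (hlQ f r) := by
  have h1 : UpperSemicontinuous (hlQ f r) := by
    refine upperSemicontinuous_ciInf (fun x => hl_bdd hlip hr x) (fun h => ?_)
    apply Continuous.upperSemicontinuous
    exact (hc.comp (continuous_id.add continuous_const)).add continuous_const
  exact h1.measurable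

/-- The pointwise Hopf-Lax limit. -/
lemma hl_limit (hd : Differentiable ℝ f) (hL : 0 ≤ L)
    (hlip : ∀ x h, |f (x + h) - f x| ≤ L * sqrt (nsq h)) (x : X n) :
    Tendsto (fun r => (f x - hlQ f r x) / r) (𝓝[>] 0) (𝓝 (gradSq f x / 2)) := by
  set D := fderiv ℝ f x with hDdef
  have hD : HasFDerivAt f D x := (hd x).hasFDerivAt
  set G2 := gradSq f x with hG2
  have hG20 : 0 ≤ G2 := be_gradSq_nonneg f x
  set G := sqrt G2 with hG
  have hG0 : 0 ≤ G := sqrt_nonneg _
  have hGG : G ^ 2 = G2 := Real.sq_sqrt hG20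
  have hDle : ∀ h : X n, |D h| ≤ G * sqrt (nsq h) := fun h => be_clm_le D h
  rw [Metric.tendsto_nhds]
  intro ε hε
  set η : ℝ := min 1 (ε / (2 * (G + 1))) with hη
  have hη0 : 0 < η := lt_min one_pos (by positivity)
  have hη1 : η ≤ 1 := min_le_left _ _
  have hη2 : η * (G + 1) < ε := by
    have h1 : η ≤ ε / (2 * (G + 1)) := min_le_right _ _
    have h2 : η * (G + 1) ≤ ε / (2 * (G + 1)) * (G + 1) :=
      mul_le_mul_of_nonneg_right h1 (by positivity)
    have h3 : ε / (2 * (G + 1)) * (G + 1) = ε / 2 := by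
      field_simp
    linarith
  have hlo := hasFDerivAt_iff_isLittleO_nhds_zero.1 hD
  have hev := hlo.def hη0
  obtain ⟨δ, hδ, hδ'⟩ := Metric.eventually_nhds_iff.1 hev
  have hloc : ∀ h : X n, ‖h‖ < δ → |f (x + h) - f x - D h| ≤ η * ‖h‖ := by
    intro h hh
    have := @hδ' h (by simpa using hh)
    simpa [Real.norm_eq_abs] using this
  set r0 : ℝ := min (δ / (G + 1)) (δ / (2 * L + 1)) with hr0
  have hr00 : 0 < r0 := lt_min (by positivity) (by positivity)
  filter_upwards [Ioo_mem_nhdsGT hr00] with r hr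
  have hr1 : 0 < r := hr.1
  have hr2 : r < δ / (G + 1) := lt_of_lt_of_le hr.2 (min_le_left _ _)
  have hr3 : r < δ / (2 * L + 1) := lt_of_lt_of_le hr.2 (min_le_right _ _)
  -- upper bound on `Q`
  have hupper : hlQ f r x ≤ f x - r * G2 / 2 + η * r * G := by
    set v : X n := fun i => fderiv ℝ f x (Pi.single i 1) with hv
    set h : X n := fun i => -r * v i with hh
    have hnv : nsq v = G2 := rfl
    have hnh : nsq h = r ^ 2 * G2 := by
      simp only [nsq, hh, mul_pow, neg_sq]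
      rw [← Finset.mul_sum]
      rfl
    have hsq : sqrt (nsq h) = r * G := by
      rw [hnh, Real.sqrt_mul (by positivity), Real.sqrt_sq hr1.le]
    have hnorm : ‖h‖ ≤ r * G := by
      rw [← hsq]
      exact be_norm_le h
    have hnormδ : ‖h‖ < δ := by
      refine lt_of_le_of_lt hnorm ?_
      have : r * (G + 1) < δ := by
        rwa [lt_div_iff₀ (by positivity)] at hr2
      nlinarith
    have hDh : D h = -r * G2 := by
      rw [be_clm_apply]
      simp only [hh, hv, hDdef]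
      rw [hG2]
      unfold gradSq
      rw [Finset.mul_sum]
      refine Finset.sum_congr rfl (fun i _ => ?_)
      ring
    have h1 := hl_le hlip hr1 x h
    have h2 := (abs_le.1 (hloc h hnormδ)).2
    rw [hDh] at h2
    have h3 : nsq h / (2 * r) = r * G2 / 2 := by
      rw [hnh]
      field_simp
    have h4 : η * ‖h‖ ≤ η * (r * G) := mul_le_mul_of_nonneg_left hnorm hη0.le
    rw [h3] at h1
    nlinarith
  -- lower bound on `Q`
  have hlower : f x - r * (G + η) ^ 2 / 2 ≤ hlQ f r x := by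
    refine le_ciInf (fun h => ?_)
    set w := sqrt (nsq h) with hw
    have hw0 : 0 ≤ w := sqrt_nonneg _
    have hww : w ^ 2 = nsq h := Real.sq_sqrt (be_nsq_nonneg h)
    rcases lt_or_ge w δ with hwδ | hwδ
    · have h1 : ‖h‖ ≤ w := be_norm_le h
      have h2 := (abs_le.1 (hloc h (lt_of_le_of_lt h1 hwδ))).1
      have h3 := (abs_le.1 (hDle h)).1
      have h4 : η * ‖h‖ ≤ η * w := mul_le_mul_of_nonneg_left h1 hη0.le
      have h5 := be_amgm (G + η) w hr1
      rw [hww] at h5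
      have e : (G + η) * w = G * w + η * w := by ring
      rw [e] at h5
      linarith
    · have h1 := (abs_le.1 (hlip x h)).1
      have h2 : L * w ≤ nsq h / (2 * r) := by
        rw [← hww]
        have h3 : (2 * L + 1) * r < δ := by
          rw [lt_div_iff₀ (by positivity)] at hr3
          linarith
        have h4 : 2 * L * r ≤ w := by nlinarith
        rw [le_div_iff₀ (by positivity)]
        nlinarith
      have h3 : 0 ≤ r * (G + η) ^ 2 / 2 := by positivity
      linarith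
  have hφ1 : (f x - hlQ f r x) / r ≤ G2 / 2 + η * G + η ^ 2 / 2 := by
    rw [div_le_iff₀ hr1]
    have : r * (G + η) ^ 2 / 2 = (G2 / 2 + η * G + η ^ 2 / 2) * r := by
      rw [← hGG]
      ring
    linarith
  have hφ2 : G2 / 2 - η * G ≤ (f x - hlQ f r x) / r := by
    rw [le_div_iff₀ hr1]
    linarith
  rw [Real.dist_eq, abs_lt]
  have hη3 : η ^ 2 / 2 ≤ η := by nlinarith
  constructor <;> nlinarith

end HL

lemma be_int {Φ : X n → ℝ} (hΦi : Integrable Φ) {b : X n → ℝ} (hb : Measurable b) {B : ℝ}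
    (hB : ∀ x, |b x| ≤ B) : Integrable (fun x => b x * Φ x) := by
  refine (hΦi.norm.const_mul B).mono' (hb.aestronglyMeasurable.mul hΦi.aestronglyMeasurable) ?_
  filter_upwards with x
  rw [norm_mul, Real.norm_eq_abs, Real.norm_eq_abs]
  exact mul_le_mul_of_nonneg_right (hB x) (abs_nonneg _)

lemma be_nsq_sub_swap (x x' : X n) : nsq (x - x') = nsq (x' - x) := by
  unfold nsq
  refine Finset.sum_congr rfl (fun i _ => ?_)
  simp only [Pi.sub_apply]
  ring

lemma be_nsq_smul (c : ℝ) (x : X n) : nsq (c • x) = c ^ 2 * nsq x := by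
  unfold nsq
  rw [Finset.mul_sum]
  refine Finset.sum_congr rfl (fun i _ => ?_)
  simp only [Pi.smul_apply, smul_eq_mul]
  ring

section Core

variable {Φ : X n → ℝ} {s : ℝ} {f : X n → ℝ} {C L : ℝ}

/-- The Prekopa-Leindler step. -/
lemma be_pl_step (hΦm : Measurable Φ) (hΦ0 : ∀ x, 0 ≤ Φ x) (hΦi : Integrable Φ)
    (hA : 0 < ∫ x, Φ x) (hs : 0 < s)
    (hslc : ∀ t : ℝ, 0 < t → t < 1 → ∀ x x' : X n,
      Φ x ^ t * Φ x' ^ (1 - t) ≤
        Φ (t • x + (1 - t) • x') * exp (-(s / 2 * t * (1 - t) * nsq (x - x'))))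
    (hc : Continuous f) (hC : ∀ x, |f x| ≤ C) (hL : 0 ≤ L)
    (hlip : ∀ x h, |f (x + h) - f x| ≤ L * sqrt (nsq h)) {r : ℝ} (hr : 0 < r)
    (hJ : 0 < ∫ x, exp ((1 + s * r) * hlQ f r x) * Φ x) :
    log (∫ x, exp ((1 + s * r) * hlQ f r x) * Φ x) + s * r * log (∫ x, Φ x) ≤
      (1 + s * r) * log (∫ x, exp (f x) * Φ x) := by
  have hsr : 0 < s * r := mul_pos hs hr
  set a : ℝ := 1 + s * r with ha
  have ha0 : 0 < a := by positivity
  set τ : ℝ := a⁻¹ with hτ
  have hτ0 : 0 < τ := by positivity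
  have hτ1 : τ < 1 := by
    rw [hτ]
    exact inv_lt_one_of_one_lt₀ (by rw [ha]; linarith)
  have hτa : a * τ = 1 := by rw [hτ]; field_simp
  have h2 : 0 < 1 - τ := by linarith
  have h1τ : 1 - τ = s * r * τ := by
    have : (1 + s * r) * τ = 1 := hτa
    linarith
  have hQm := hl_meas hc hlip hr
  have hfm : Measurable f := hc.measurable
  have hCb : 0 ≤ C := (abs_nonneg _).trans (hC 0)
  have hQbd : ∀ x, |exp (a * hlQ f r x)| ≤ exp (a * C) := by
    intro x
    rw [abs_of_pos (exp_pos _)]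
    apply exp_le_exp.2
    apply mul_le_mul_of_nonneg_left _ ha0.le
    exact (hl_le_self hlip hr x).trans ((abs_le.1 (hC x)).2)
  have hfbd : ∀ x, |exp (f x)| ≤ exp C := by
    intro x
    rw [abs_of_pos (exp_pos _)]
    exact exp_le_exp.2 (abs_le.1 (hC x)).2
  have hUm : Measurable (fun x => exp (a * hlQ f r x) * Φ x) :=
    (measurable_exp.comp (hQm.const_mul a)).mul hΦm
  have hHm : Measurable (fun x => exp (f x) * Φ x) := (measurable_exp.comp hfm).mul hΦm
  have hUi : Integrable (fun x => exp (a * hlQ f r x) * Φ x) :=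
    be_int hΦi (measurable_exp.comp (hQm.const_mul a)) hQbd
  have hHi : Integrable (fun x => exp (f x) * Φ x) := be_int hΦi (measurable_exp.comp hfm) hfbd
  have key := PLG.pl_real hτ0 hτ1 hUm hΦm hHm (fun x => mul_nonneg (exp_pos _).le (hΦ0 x)) hΦ0
    (fun x => mul_nonneg (exp_pos _).le (hΦ0 x)) hUi hΦi hHi (by
      intro x x'
      set z : X n := τ • x + (1 - τ) • x' with hz
      have e1 : (exp (a * hlQ f r x) * Φ x) ^ τ = exp (hlQ f r x) * Φ x ^ τ := by
        rw [Real.mul_rpow (exp_pos _).le (hΦ0 x), ← Real.exp_mul]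
        congr 2
        rw [mul_comm a, mul_assoc, hτa, mul_one]
      rw [e1]
      have h3 := hslc τ hτ0 hτ1 x x'
      rw [← hz] at h3
      -- the inf-convolution inequality
      set h : X n := (1 - τ) • (x' - x) with hh
      have hxh : x + h = z := by
        rw [hz, hh]
        ext i
        simp only [Pi.add_apply, Pi.smul_apply, Pi.sub_apply, smul_eq_mul]
        ring
      have h4 := hl_le hlip hr x h
      rw [hxh] at h4
      have hnh : nsq h / (2 * r) = s / 2 * τ * (1 - τ) * nsq (x - x') := by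
        rw [hh, be_nsq_smul, be_nsq_sub_swap x x']
        rw [sq, h1τ]
        field_simp
      rw [hnh] at h4
      calc exp (hlQ f r x) * Φ x ^ τ * Φ x' ^ (1 - τ)
          = exp (hlQ f r x) * (Φ x ^ τ * Φ x' ^ (1 - τ)) := by ring
        _ ≤ exp (hlQ f r x) * (Φ z * exp (-(s / 2 * τ * (1 - τ) * nsq (x - x')))) :=
            mul_le_mul_of_nonneg_left h3 (exp_pos _).le
        _ = exp (hlQ f r x + -(s / 2 * τ * (1 - τ) * nsq (x - x'))) * Φ z := by
            rw [Real.exp_add]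
            ring
        _ ≤ exp (f z) * Φ z := by
            apply mul_le_mul_of_nonneg_right _ (hΦ0 z)
            apply exp_le_exp.2
            linarith)
  have hJ' : 0 < ∫ x, exp (a * hlQ f r x) * Φ x := hJ
  have hI : 0 < ∫ x, exp (f x) * Φ x := by
    have h5 : ∫ x, exp (-C) * Φ x ≤ ∫ x, exp (f x) * Φ x :=
      integral_mono (hΦi.const_mul _) hHi (fun x => mul_le_mul_of_nonneg_right
        (exp_le_exp.2 (by linarith [(abs_le.1 (hC x)).1])) (hΦ0 x))
    rw [integral_const_mul] at h5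
    exact lt_of_lt_of_le (mul_pos (exp_pos _) hA) h5
  have hlog := Real.log_le_log (mul_pos (Real.rpow_pos_of_pos hJ' _) (Real.rpow_pos_of_pos hA _)) key
  rw [Real.log_mul (Real.rpow_pos_of_pos hJ' _).ne' (Real.rpow_pos_of_pos hA _).ne',
    Real.log_rpow hJ', Real.log_rpow hA] at hlog
  have h6 := mul_le_mul_of_nonneg_left hlog ha0.le
  have h7 : a - 1 = s * r := by rw [ha]; ring
  have e : a * (τ * log (∫ x, exp (a * hlQ f r x) * Φ x) + (1 - τ) * log (∫ x, Φ x)) =
      log (∫ x, exp (a * hlQ f r x) * Φ x) + s * r * log (∫ x, Φ x) := by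
    calc _ = (a * τ) * log (∫ x, exp (a * hlQ f r x) * Φ x) +
          (a - a * τ) * log (∫ x, Φ x) := by ring
      _ = _ := by rw [hτa, h7, one_mul]
  rw [e] at h6
  exact h6

lemma be_Q_bounds (hC : ∀ x, |f x| ≤ C) (hlip : ∀ x h, |f (x + h) - f x| ≤ L * sqrt (nsq h))
    {r : ℝ} (hr : 0 < r) (x : X n) :
    |hlQ f r x| ≤ C + r * L ^ 2 / 2 ∧ 0 ≤ (f x - hlQ f r x) / r ∧
      (f x - hlQ f r x) / r ≤ L ^ 2 / 2 := by
  have h1 := hl_le_self hlip hr x
  have h2 := hl_ge hlip hr x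
  have h3 := abs_le.1 (hC x)
  have hrL : 0 ≤ r * L ^ 2 / 2 := by positivity
  refine ⟨abs_le.2 ⟨by linarith, by linarith⟩, div_nonneg (by linarith) hr.le, ?_⟩
  rw [div_le_iff₀ hr]
  linarith

lemma be_b_bound (hs : 0 < s) (hC : ∀ x, |f x| ≤ C)
    (hlip : ∀ x h, |f (x + h) - f x| ≤ L * sqrt (nsq h)) {r : ℝ} (hr : 0 < r) (x : X n) :
    |exp (f x) * (s * hlQ f r x - (f x - hlQ f r x) / r)| ≤
      exp C * (s * (C + r * L ^ 2 / 2) + L ^ 2 / 2) := by
  obtain ⟨h1, h2, h3⟩ := be_Q_bounds hC hlip hr x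
  rw [abs_mul, abs_of_pos (exp_pos _)]
  have h4 : exp (f x) ≤ exp C := exp_le_exp.2 (abs_le.1 (hC x)).2
  have h5 : |s * hlQ f r x - (f x - hlQ f r x) / r| ≤ s * (C + r * L ^ 2 / 2) + L ^ 2 / 2 := by
    refine (abs_sub _ _).trans ?_
    rw [abs_mul, abs_of_pos hs, abs_of_nonneg h2]
    have := mul_le_mul_of_nonneg_left h1 hs.le
    linarith
  exact mul_le_mul h4 h5 (abs_nonneg _) (exp_pos _).le

/-- The linearization. -/
lemma be_lin (hΦm : Measurable Φ) (hΦ0 : ∀ x, 0 ≤ Φ x) (hΦi : Integrable Φ) (hs : 0 < s)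
    (hc : Continuous f) (hC : ∀ x, |f x| ≤ C)
    (hlip : ∀ x h, |f (x + h) - f x| ≤ L * sqrt (nsq h)) {r : ℝ} (hr : 0 < r) :
    (∫ x, exp (f x) * Φ x) +
        r * ∫ x, exp (f x) * (s * hlQ f r x - (f x - hlQ f r x) / r) * Φ x ≤
      ∫ x, exp ((1 + s * r) * hlQ f r x) * Φ x := by
  have hQm := hl_meas hc hlip hr
  have hfm : Measurable f := hc.measurable
  have hC0 : 0 ≤ C := (abs_nonneg _).trans (hC 0)
  have hfbd : ∀ x, |exp (f x)| ≤ exp C := by
    intro x
    rw [abs_of_pos (exp_pos _)]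
    exact exp_le_exp.2 (abs_le.1 (hC x)).2
  have hQbd : ∀ x, |exp ((1 + s * r) * hlQ f r x)| ≤ exp ((1 + s * r) * C) := by
    intro x
    rw [abs_of_pos (exp_pos _)]
    apply exp_le_exp.2
    apply mul_le_mul_of_nonneg_left _ (by positivity)
    exact (hl_le_self hlip hr x).trans ((abs_le.1 (hC x)).2)
  have hHi : Integrable (fun x => exp (f x) * Φ x) := be_int hΦi (measurable_exp.comp hfm) hfbd
  have hUi : Integrable (fun x => exp ((1 + s * r) * hlQ f r x) * Φ x) :=
    be_int hΦi (measurable_exp.comp (hQm.const_mul _)) hQbd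
  have hKi : Integrable (fun x => exp (f x) * (s * hlQ f r x - (f x - hlQ f r x) / r) * Φ x) :=
    be_int hΦi ((measurable_exp.comp hfm).mul ((hQm.const_mul s).sub ((hfm.sub hQm).div_const r)))
      (be_b_bound hs hC hlip hr)
  rw [← integral_const_mul, ← integral_add hHi (hKi.const_mul r)]
  refine integral_mono (hHi.add (hKi.const_mul r)) hUi (fun x => ?_)
  simp only
  have e : (1 + s * r) * hlQ f r x =
      f x + r * (s * hlQ f r x - (f x - hlQ f r x) / r) := by
    field_simp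
    ring
  rw [e, Real.exp_add]
  have h1 := Real.add_one_le_exp (r * (s * hlQ f r x - (f x - hlQ f r x) / r))
  have h2 := mul_le_mul_of_nonneg_left h1 (mul_nonneg (exp_pos (f x)).le (hΦ0 x))
  nlinarith [h2]

/-- The core inequality. -/
theorem be_core (hΦm : Measurable Φ) (hΦ0 : ∀ x, 0 ≤ Φ x) (hΦi : Integrable Φ)
    (hA : 0 < ∫ x, Φ x) (hs : 0 < s)
    (hslc : ∀ t : ℝ, 0 < t → t < 1 → ∀ x x' : X n,
      Φ x ^ t * Φ x' ^ (1 - t) ≤
        Φ (t • x + (1 - t) • x') * exp (-(s / 2 * t * (1 - t) * nsq (x - x'))))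
    (hf : ContDiff ℝ ∞ f) (hC : ∀ x, |f x| ≤ C) (hL : 0 ≤ L) (hLb : ∀ x, gradSq f x ≤ L ^ 2) :
    (∫ x, exp (f x) * f x * Φ x) -
        (∫ x, exp (f x) * Φ x) * log ((∫ x, exp (f x) * Φ x) / ∫ x, Φ x) ≤
      (1 / (2 * s)) * ∫ x, exp (f x) * gradSq f x * Φ x := by
  have hc : Continuous f := hf.continuous
  have hd : Differentiable ℝ f := hf.differentiable (by simp)
  have hlip := be_lip hd hL hLb
  have hfm : Measurable f := hc.measurable
  have hgm : Measurable (gradSq f) := (be_gs_continuous hf).measurable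
  have hC0 : 0 ≤ C := (abs_nonneg _).trans (hC 0)
  have hfbd : ∀ x, |exp (f x)| ≤ exp C := by
    intro x
    rw [abs_of_pos (exp_pos _)]
    exact exp_le_exp.2 (abs_le.1 (hC x)).2
  have hHi : Integrable (fun x => exp (f x) * Φ x) := be_int hΦi (measurable_exp.comp hfm) hfbd
  set A := ∫ x, Φ x with hAdef
  set I := ∫ x, exp (f x) * Φ x with hIdef
  have hI : 0 < I := by
    have h5 : ∫ x, exp (-C) * Φ x ≤ ∫ x, exp (f x) * Φ x :=
      integral_mono (hΦi.const_mul _) hHi (fun x => mul_le_mul_of_nonneg_right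
        (exp_le_exp.2 (by linarith [(abs_le.1 (hC x)).1])) (hΦ0 x))
    rw [integral_const_mul] at h5
    exact lt_of_lt_of_le (mul_pos (exp_pos _) hA) h5
  set K : ℝ → ℝ := fun r => ∫ x, exp (f x) * (s * hlQ f r x - (f x - hlQ f r x) / r) * Φ x with hK
  set K0 := ∫ x, exp (f x) * (s * f x - gradSq f x / 2) * Φ x with hK0
  have h0 : Tendsto (fun r : ℝ => r) (𝓝[>] 0) (𝓝 0) :=
    tendsto_nhdsWithin_of_tendsto_nhds tendsto_id
  have hlim : Tendsto K (𝓝[>] 0) (𝓝 K0) := by
    refine tendsto_integral_filter_of_dominated_convergence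
      (fun x => exp C * (s * (C + L ^ 2 / 2) + L ^ 2 / 2) * |Φ x|) ?_ ?_ ?_ ?_
    · filter_upwards [self_mem_nhdsWithin] with r hr
      have hr' : 0 < r := hr
      have hQm := hl_meas hc hlip hr'
      exact (((measurable_exp.comp hfm).mul ((hQm.const_mul s).sub
        ((hfm.sub hQm).div_const r))).mul hΦm).aestronglyMeasurable
    · filter_upwards [Ioo_mem_nhdsGT (zero_lt_one' ℝ)] with r hr
      refine Eventually.of_forall (fun x => ?_)
      have h1 := be_b_bound hs hC hlip hr.1 x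
      rw [norm_mul, Real.norm_eq_abs, Real.norm_eq_abs]
      refine mul_le_mul_of_nonneg_right (h1.trans ?_) (abs_nonneg _)
      refine mul_le_mul_of_nonneg_left ?_ (exp_pos _).le
      have h2 : r * L ^ 2 / 2 ≤ L ^ 2 / 2 := by nlinarith [hr.2, sq_nonneg L]
      have := mul_le_mul_of_nonneg_left h2 hs.le
      nlinarith
    · exact hΦi.abs.const_mul _
    · refine Eventually.of_forall (fun x => ?_)
      have hφ := hl_limit hd hL hlip x
      have hQ : Tendsto (fun r => hlQ f r x) (𝓝[>] 0) (𝓝 (f x)) := by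
        have h1 : Tendsto (fun r : ℝ => f x - r * L ^ 2 / 2) (𝓝[>] 0) (𝓝 (f x - 0 * L ^ 2 / 2)) :=
          tendsto_const_nhds.sub ((h0.mul_const _).div_const _)
        rw [zero_mul, zero_div, sub_zero] at h1
        refine tendsto_of_tendsto_of_tendsto_of_le_of_le' h1 tendsto_const_nhds ?_ ?_
        · filter_upwards [self_mem_nhdsWithin] with r hr
          exact hl_ge hlip hr x
        · filter_upwards [self_mem_nhdsWithin] with r hr
          exact hl_le_self hlip hr x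
      exact (tendsto_const_nhds.mul ((hQ.const_mul s).sub hφ)).mul_const (Φ x)
  have hev : ∀ᶠ r in 𝓝[>] (0 : ℝ), K r / (I + r * K r) ≤ s * (log I - log A) := by
    have hpos : Tendsto (fun r => I + r * K r) (𝓝[>] 0) (𝓝 (I + 0 * K0)) :=
      tendsto_const_nhds.add (h0.mul hlim)
    rw [zero_mul, add_zero] at hpos
    have hposI : ∀ᶠ r in 𝓝[>] (0 : ℝ), 0 < I + r * K r := hpos.eventually (lt_mem_nhds hI)
    filter_upwards [self_mem_nhdsWithin, hposI] with r hr hr2
    have hr0 : 0 < r := hr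
    have hJge : I + r * K r ≤ ∫ x, exp ((1 + s * r) * hlQ f r x) * Φ x :=
      be_lin hΦm hΦ0 hΦi hs hc hC hlip hr0
    have hJ := lt_of_lt_of_le hr2 hJge
    have hstep := be_pl_step hΦm hΦ0 hΦi hA hs hslc hc hC hL hlip hr0 hJ
    have hlogJ := Real.log_le_log hr2 hJge
    have h3 : 1 - I / (I + r * K r) ≤ log (I + r * K r) - log I := by
      have := Real.one_sub_inv_le_log_of_pos (x := (I + r * K r) / I) (div_pos hr2 hI)
      rwa [Real.log_div hr2.ne' hI.ne', inv_div] at this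
    have h4 : 1 - I / (I + r * K r) = r * (K r / (I + r * K r)) := by
      field_simp
      ring
    have h5 : r * (K r / (I + r * K r)) ≤ r * (s * (log I - log A)) := by
      rw [← h4]
      have e : (1 + s * r) * log I = log I + s * r * log I := by ring
      have e2 : r * (s * (log I - log A)) = s * r * log I - s * r * log A := by ring
      rw [e2]
      linarith
    exact le_of_mul_le_mul_left h5 hr0
  have hlim2 : Tendsto (fun r => K r / (I + r * K r)) (𝓝[>] 0) (𝓝 (K0 / (I + 0 * K0))) :=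
    hlim.div (tendsto_const_nhds.add (h0.mul hlim)) (by simpa using hI.ne')
  have hfinal := le_of_tendsto hlim2 hev
  rw [zero_mul, add_zero, div_le_iff₀ hI] at hfinal
  have hi1 : Integrable (fun x => exp (f x) * f x * Φ x) :=
    be_int hΦi ((measurable_exp.comp hfm).mul hfm) (b := fun x => exp (f x) * f x)
      (B := exp C * C) (fun x => by
        rw [abs_mul]
        exact mul_le_mul (hfbd x) (hC x) (abs_nonneg _) (exp_pos _).le)
  have hi2 : Integrable (fun x => exp (f x) * gradSq f x * Φ x) :=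
    be_int hΦi ((measurable_exp.comp hfm).mul hgm) (b := fun x => exp (f x) * gradSq f x)
      (B := exp C * L ^ 2) (fun x => by
        rw [abs_mul, abs_of_nonneg (be_gradSq_nonneg f x)]
        exact mul_le_mul (hfbd x) (hLb x) (be_gradSq_nonneg f x) (exp_pos _).le)
  have hK0e : K0 = s * (∫ x, exp (f x) * f x * Φ x) -
      (1 / 2) * ∫ x, exp (f x) * gradSq f x * Φ x := by
    rw [hK0, ← integral_const_mul, ← integral_const_mul, ← integral_sub (hi1.const_mul _)
      (hi2.const_mul _)]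
    refine integral_congr_ae (Eventually.of_forall (fun x => ?_))
    simp only
    ring
  rw [hK0e] at hfinal
  rw [Real.log_div hI.ne' hA.ne']
  have e3 : (1 / (2 * s)) * ∫ x, exp (f x) * gradSq f x * Φ x =
      ((∫ x, exp (f x) * gradSq f x * Φ x) / 2) / s := by
    field_simp
  rw [e3, le_div_iff₀ hs]
  nlinarith [hfinal]

end Core

section Slc

lemma be_dot_comb (y x x' : X n) (t : ℝ) :
    dot y (t • x + (1 - t) • x') = t * dot y x + (1 - t) * dot y x' := by
  unfold dot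
  rw [Finset.mul_sum, Finset.mul_sum, ← Finset.sum_add_distrib]
  refine Finset.sum_congr rfl (fun i _ => ?_)
  simp only [Pi.add_apply, Pi.smul_apply, smul_eq_mul]
  ring

lemma be_nsq_comb (x x' : X n) (t : ℝ) :
    nsq (t • x + (1 - t) • x') = t * nsq x + (1 - t) * nsq x' - t * (1 - t) * nsq (x - x') := by
  unfold nsq
  rw [Finset.mul_sum, Finset.mul_sum, Finset.mul_sum, ← Finset.sum_add_distrib,
    ← Finset.sum_sub_distrib]
  refine Finset.sum_congr rfl (fun i _ => ?_)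
  simp only [Pi.add_apply, Pi.smul_apply, smul_eq_mul, Pi.sub_apply]
  ring

lemma be_slc {ρ : X n → ℝ} (h0 : ∀ x, 0 ≤ ρ x)
    (hlc : ∀ (x y : X n) (t : ℝ), 0 ≤ t → t ≤ 1 →
      ρ x ^ t * ρ y ^ (1 - t) ≤ ρ (t • x + (1 - t) • y))
    (s : ℝ) (y : X n) {t : ℝ} (ht0 : 0 < t) (ht1 : t < 1) (x x' : X n) :
    (ker s y x * ρ x) ^ t * (ker s y x' * ρ x') ^ (1 - t) ≤
      (ker s y (t • x + (1 - t) • x') * ρ (t • x + (1 - t) • x')) *
        exp (-(s / 2 * t * (1 - t) * nsq (x - x'))) := by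
  have hk : ∀ z, 0 < ker s y z := fun z => exp_pos _
  rw [Real.mul_rpow (hk x).le (h0 x), Real.mul_rpow (hk x').le (h0 x')]
  have h1 := hlc x x' t ht0.le ht1.le
  have e : ker s y x ^ t * ker s y x' ^ (1 - t) =
      ker s y (t • x + (1 - t) • x') * exp (-(s / 2 * t * (1 - t) * nsq (x - x'))) := by
    unfold ker
    rw [← Real.exp_mul, ← Real.exp_mul, ← Real.exp_add, ← Real.exp_add, be_dot_comb, be_nsq_comb]
    congr 1
    ring
  calc ker s y x ^ t * ρ x ^ t * (ker s y x' ^ (1 - t) * ρ x' ^ (1 - t))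
      = (ker s y x ^ t * ker s y x' ^ (1 - t)) * (ρ x ^ t * ρ x' ^ (1 - t)) := by ring
    _ ≤ (ker s y x ^ t * ker s y x' ^ (1 - t)) * ρ (t • x + (1 - t) • x') :=
        mul_le_mul_of_nonneg_left h1
          (mul_nonneg (Real.rpow_nonneg (hk x).le _) (Real.rpow_nonneg (hk x').le _))
    _ = _ := by rw [e]; ring

lemma be_gradSq_comp {g : X n → ℝ} (hg : Differentiable ℝ g) {φ φ' : ℝ → ℝ}
    (hφ : ∀ u, HasDerivAt φ (φ' u) u) (x : X n) :
    gradSq (fun x => φ (g x)) x = (φ' (g x)) ^ 2 * gradSq g x := by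
  have h1 : HasFDerivAt (fun x => φ (g x)) (φ' (g x) • fderiv ℝ g x) x :=
    (hφ (g x)).comp_hasFDerivAt x (hg x).hasFDerivAt
  unfold gradSq
  rw [h1.fderiv, Finset.mul_sum]
  refine Finset.sum_congr rfl (fun i _ => ?_)
  simp [mul_pow]

variable {Φ : X n → ℝ} {s : ℝ}

/-- The log-Sobolev inequality for an `s`-strongly log-concave weight `Φ`, test functions. -/
theorem be_phi (hΦm : Measurable Φ) (hΦ0 : ∀ x, 0 ≤ Φ x) (hΦi : Integrable Φ)
    (hA : 0 < ∫ x, Φ x) (hs : 0 < s)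
    (hslc : ∀ t : ℝ, 0 < t → t < 1 → ∀ x x' : X n,
      Φ x ^ t * Φ x' ^ (1 - t) ≤
        Φ (t • x + (1 - t) • x') * exp (-(s / 2 * t * (1 - t) * nsq (x - x'))))
    {g : X n → ℝ} (hg : IsTest g) :
    (∫ x, g x ^ 2 * log (g x ^ 2) * Φ x) -
        (∫ x, g x ^ 2 * Φ x) * log ((∫ x, g x ^ 2 * Φ x) / ∫ x, Φ x) ≤
      (2 / s) * ∫ x, gradSq g x * Φ x := by
  obtain ⟨hgs, ⟨C, hC⟩, ⟨C', hC'⟩⟩ := hg
  have hC0 : 0 ≤ C := (abs_nonneg _).trans (hC 0)
  have hC'0 : 0 ≤ C' := (be_gradSq_nonneg g 0).trans (hC' 0)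
  have hgc : Continuous g := hgs.continuous
  have hgm : Measurable g := hgc.measurable
  have hgd : Differentiable ℝ g := hgs.differentiable (by simp)
  have hgsm : Measurable (gradSq g) := (be_gs_continuous hgs).measurable
  have hg2 : ∀ x, g x ^ 2 ≤ C ^ 2 := fun x =>
    sq_le_sq' (by linarith [(abs_le.1 (hC x)).1]) (abs_le.1 (hC x)).2
  have hiG : Integrable (fun x => gradSq g x * Φ x) :=
    be_int hΦi hgsm (B := C') (fun x => by
      rw [abs_of_nonneg (be_gradSq_nonneg g x)]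
      exact hC' x)
  have hi2 : Integrable (fun x => g x ^ 2 * Φ x) :=
    be_int hΦi (hgm.pow_const 2) (B := C ^ 2) (fun x => by
      rw [abs_of_nonneg (sq_nonneg _)]
      exact hg2 x)
  have hδ : ∀ δ : ℝ, 0 < δ → (∫ x, (g x ^ 2 + δ) * log (g x ^ 2 + δ) * Φ x) -
      (∫ x, (g x ^ 2 + δ) * Φ x) * log ((∫ x, (g x ^ 2 + δ) * Φ x) / ∫ x, Φ x) ≤
      (2 / s) * ∫ x, gradSq g x * Φ x := by
    intro δ hδ
    set f : X n → ℝ := fun x => log (g x ^ 2 + δ) with hf
    have hpos : ∀ x, 0 < g x ^ 2 + δ := fun x => by positivity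
    have hexp : ∀ x, exp (f x) = g x ^ 2 + δ := fun x => Real.exp_log (hpos x)
    have hfs : ContDiff ℝ ∞ f := ((hgs.pow 2).add contDiff_const).log (fun x => (hpos x).ne')
    have hfC : ∀ x, |f x| ≤ |log δ| + |log (C ^ 2 + δ)| := by
      intro x
      have h1 : log δ ≤ f x := Real.log_le_log hδ (by nlinarith [sq_nonneg (g x)])
      have h2 : f x ≤ log (C ^ 2 + δ) := Real.log_le_log (hpos x) (by linarith [hg2 x])
      rw [abs_le]
      constructor
      · linarith [neg_abs_le (log δ), abs_nonneg (log (C ^ 2 + δ))]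
      · linarith [le_abs_self (log (C ^ 2 + δ)), abs_nonneg (log δ)]
    have hφ : ∀ u : ℝ, HasDerivAt (fun u : ℝ => log (u ^ 2 + δ)) (2 * u / (u ^ 2 + δ)) u := by
      intro u
      have h1 : HasDerivAt (fun u : ℝ => u ^ 2 + δ) (2 * u) u := by
        simpa using (hasDerivAt_pow 2 u).add_const δ
      exact h1.log (by positivity)
    have hgf : ∀ x, gradSq f x = (2 * g x / (g x ^ 2 + δ)) ^ 2 * gradSq g x := fun x =>
      be_gradSq_comp hgd hφ x
    set L : ℝ := 2 * C / δ * sqrt C' with hL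
    have hL0 : 0 ≤ L := by positivity
    have hLb : ∀ x, gradSq f x ≤ L ^ 2 := by
      intro x
      rw [hgf, hL, mul_pow, Real.sq_sqrt hC'0]
      refine mul_le_mul ?_ (hC' x) (be_gradSq_nonneg g x) (by positivity)
      rw [div_pow, div_pow]
      refine div_le_div₀ (by positivity) ?_ (by positivity) ?_
      · nlinarith [hg2 x]
      · exact pow_le_pow_left₀ hδ.le (by nlinarith [sq_nonneg (g x)]) 2
    have hc := be_core hΦm hΦ0 hΦi hA hs hslc hfs hfC hL0 hLb
    simp only [hexp] at hc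
    refine hc.trans ?_
    have hi3 : Integrable (fun x => (g x ^ 2 + δ) * gradSq f x * Φ x) :=
      be_int hΦi (((hgm.pow_const 2).add_const δ).mul (be_gs_continuous hfs).measurable)
        (B := (C ^ 2 + δ) * L ^ 2) (fun x => by
          rw [abs_mul, abs_of_pos (hpos x), abs_of_nonneg (be_gradSq_nonneg f x)]
          exact mul_le_mul (by linarith [hg2 x]) (hLb x) (be_gradSq_nonneg f x) (by positivity))
    have hmono : ∫ x, (g x ^ 2 + δ) * gradSq f x * Φ x ≤ ∫ x, 4 * (gradSq g x * Φ x) := by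
      refine integral_mono hi3 (hiG.const_mul 4) (fun x => ?_)
      simp only
      rw [hgf]
      have h1 : (g x ^ 2 + δ) * (2 * g x / (g x ^ 2 + δ)) ^ 2 = 4 * g x ^ 2 / (g x ^ 2 + δ) := by
        have := (hpos x).ne'
        field_simp
        ring
      have h2 : 4 * g x ^ 2 / (g x ^ 2 + δ) ≤ 4 := by
        rw [div_le_iff₀ (hpos x)]
        nlinarith
      have h3 : 0 ≤ gradSq g x * Φ x := mul_nonneg (be_gradSq_nonneg g x) (hΦ0 x)
      calc (g x ^ 2 + δ) * ((2 * g x / (g x ^ 2 + δ)) ^ 2 * gradSq g x) * Φ x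
          = ((g x ^ 2 + δ) * (2 * g x / (g x ^ 2 + δ)) ^ 2) * (gradSq g x * Φ x) := by ring
        _ = (4 * g x ^ 2 / (g x ^ 2 + δ)) * (gradSq g x * Φ x) := by rw [h1]
        _ ≤ 4 * (gradSq g x * Φ x) := mul_le_mul_of_nonneg_right h2 h3
    rw [integral_const_mul] at hmono
    have h5 := mul_le_mul_of_nonneg_left hmono (by positivity : (0 : ℝ) ≤ 1 / (2 * s))
    refine h5.trans (le_of_eq ?_)
    field_simp
    ring
  have h0 : Tendsto (fun r : ℝ => r) (𝓝[>] 0) (𝓝 0) :=
    tendsto_nhdsWithin_of_tendsto_nhds tendsto_id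
  obtain ⟨M, hM⟩ := (isCompact_Icc (a := (0 : ℝ)) (b := C ^ 2 + 1)).exists_bound_of_continuousOn
    (Real.continuous_mul_log.continuousOn)
  have hE : Tendsto (fun δ : ℝ => ∫ x, (g x ^ 2 + δ) * log (g x ^ 2 + δ) * Φ x) (𝓝[>] 0)
      (𝓝 (∫ x, g x ^ 2 * log (g x ^ 2) * Φ x)) := by
    refine tendsto_integral_filter_of_dominated_convergence (fun x => M * |Φ x|) ?_ ?_
      (hΦi.abs.const_mul _) ?_
    · filter_upwards with δ
      exact ((((hgm.pow_const 2).add_const δ).mul
        (Real.measurable_log.comp ((hgm.pow_const 2).add_const δ))).mul hΦm).aestronglyMeasurable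
    · filter_upwards [Ioo_mem_nhdsGT (zero_lt_one' ℝ)] with δ hδ'
      refine Eventually.of_forall (fun x => ?_)
      rw [norm_mul, Real.norm_eq_abs (Φ x)]
      refine mul_le_mul_of_nonneg_right (hM _ ⟨?_, ?_⟩) (abs_nonneg _)
      · nlinarith [sq_nonneg (g x), hδ'.1]
      · linarith [hg2 x, hδ'.2]
    · refine Eventually.of_forall (fun x => ?_)
      have h1 : Tendsto (fun δ : ℝ => g x ^ 2 + δ) (𝓝[>] 0) (𝓝 (g x ^ 2 + 0)) :=
        tendsto_const_nhds.add h0
      rw [add_zero] at h1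
      exact ((Real.continuous_mul_log.tendsto _).comp h1).mul_const _
  have hIe : ∀ δ : ℝ, ∫ x, (g x ^ 2 + δ) * Φ x = (∫ x, g x ^ 2 * Φ x) + δ * ∫ x, Φ x := by
    intro δ
    rw [← integral_const_mul, ← integral_add hi2 (hΦi.const_mul δ)]
    refine integral_congr_ae (Eventually.of_forall (fun x => ?_))
    simp only
    ring
  have hItend : Tendsto (fun δ : ℝ => ∫ x, (g x ^ 2 + δ) * Φ x) (𝓝[>] 0)
      (𝓝 (∫ x, g x ^ 2 * Φ x)) := by
    simp only [hIe]
    have := (tendsto_const_nhds (x := ∫ x, g x ^ 2 * Φ x)).add (h0.mul_const (∫ x, Φ x))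
    simpa using this
  have hILog : Tendsto (fun δ : ℝ => (∫ x, (g x ^ 2 + δ) * Φ x) *
      log ((∫ x, (g x ^ 2 + δ) * Φ x) / ∫ x, Φ x)) (𝓝[>] 0)
      (𝓝 ((∫ x, g x ^ 2 * Φ x) * log ((∫ x, g x ^ 2 * Φ x) / ∫ x, Φ x))) := by
    have h1 := ((Real.continuous_mul_log.tendsto _).comp
      (hItend.div_const (∫ x, Φ x))).const_mul (∫ x, Φ x)
    have e : ∀ u : ℝ, (∫ x, Φ x) * (u / (∫ x, Φ x) * log (u / ∫ x, Φ x)) =
        u * log (u / ∫ x, Φ x) := fun u => by
      rw [← mul_assoc, mul_div_cancel₀ _ hA.ne']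
    simp only [Function.comp_def] at h1
    simpa only [e] using h1
  refine le_of_tendsto (hE.sub hILog) ?_
  filter_upwards [self_mem_nhdsWithin] with δ hδ'
  exact hδ δ hδ'

/-- Bakry-Emery for Gaussian tilts of log-concave densities. -/
theorem be_main {ρ : X n → ℝ} (hm : Measurable ρ) (h0 : ∀ x, 0 ≤ ρ x)
    (hlc : ∀ (x y : X n) (t : ℝ), 0 ≤ t → t ≤ 1 →
      ρ x ^ t * ρ y ^ (1 - t) ≤ ρ (t • x + (1 - t) • y))
    (hi : Integrable ρ) (hmass : ∫ x, ρ x = 1) (hs : 0 < s) (y : X n) {g : X n → ℝ}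
    (hg : IsTest g) :
    (∫ x, g x ^ 2 * log (g x ^ 2) * ker s y x * ρ x) -
      (∫ x, g x ^ 2 * ker s y x * ρ x) *
        log ((∫ x, g x ^ 2 * ker s y x * ρ x) / ∫ x, ker s y x * ρ x) ≤
      (2 / s) * ∫ x, gradSq g x * ker s y x * ρ x := by
  have hkc : Continuous (ker s y) := by
    unfold ker dot nsq
    refine Real.continuous_exp.comp (Continuous.sub ?_ (continuous_const.mul ?_))
    · exact continuous_finsetSum _ (fun i _ => continuous_const.mul (continuous_apply i))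
    · exact continuous_finsetSum _ (fun i _ => (continuous_apply i).pow 2)
  have hkm := hkc.measurable
  have hΦm : Measurable (fun x => ker s y x * ρ x) := hkm.mul hm
  have hΦ0 : ∀ x, 0 ≤ ker s y x * ρ x := fun x => mul_nonneg (exp_pos _).le (h0 x)
  have hkb : ∀ x, |ker s y x| ≤ exp (nsq y / (2 * s)) := by
    intro x
    rw [ker, abs_of_pos (exp_pos _)]
    apply exp_le_exp.2
    have h : dot y x ≤ nsq y / (2 * s) + s / 2 * nsq x := by
      unfold dot nsq
      rw [Finset.sum_div, Finset.mul_sum, ← Finset.sum_add_distrib]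
      refine Finset.sum_le_sum (fun i _ => ?_)
      have := be_amgm (x i) (y i) hs
      nlinarith [this]
    linarith
  have hΦi : Integrable (fun x => ker s y x * ρ x) := be_int hi hkm hkb
  have hA : 0 < ∫ x, ker s y x * ρ x := by
    by_contra hcon
    have h1 : ∫ x, ker s y x * ρ x = 0 := le_antisymm (not_lt.1 hcon) (integral_nonneg hΦ0)
    rw [integral_eq_zero_iff_of_nonneg hΦ0 hΦi] at h1
    have h2 : ρ =ᵐ[volume] 0 := by
      filter_upwards [h1] with x hx
      rcases mul_eq_zero.1 hx with h | h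
      · exact absurd h (exp_pos _).ne'
      · exact h
    have h3 := integral_congr_ae h2
    rw [hmass] at h3
    simp at h3
  have := be_phi hΦm hΦ0 hΦi hA hs
    (fun t ht0 ht1 x x' => be_slc h0 hlc s y ht0 ht1 x x') hg
  simpa only [mul_assoc] using this

end Slc

end Vale.Agent.Lib.P245
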