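import Vale.Agent.Lib.P245.Wrap
import Vale.Agent.Lib.P245.BE
/-! The Bakry-Emery hypothesis of `lsi_density` is a theorem: see `BE.lean`. -/
open MeasureTheory ProbabilityTheory Real
open scoped BigOperators ContDiff ENNReal
noncomputable section
namespace Vale.Agent.Lib.P245
variable {n : ℕ}

/-- The Bakry-Emery theorem for Gaussian tilts of log-concave densities (proved, by the
Bobkov-Ledoux argument from Prekopa-Leindler). -/
theorem bakryEmery_holds (n : ℕ) : BakryEmery n :=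
  fun _ hρ _ hs y _ hg => be_main hρ.meas hρ.nonneg hρ.logconcave hρ.intg hρ.mass hs y hg

/-- The density form of the main theorem, with no Bakry-Emery hypothesis. -/
theorem lsi_density_unconditional (n_pos : 0 < n) {ρ : X n → ℝ} (hρ : LCDensity ρ) {a : ℝ}
    (ha : 0 < a) (hc : ∀ i, ∫ x, x i * ρ x = 0)
    (hi : ∀ θ : X n, nsq θ = 1 → Integrable (fun x => exp (dot x θ ^ 2 / a ^ 2) * ρ x))
    (hs : ∀ θ : X n, nsq θ = 1 → ∫ x, exp (dot x θ ^ 2 / a ^ 2) * ρ x ≤ 2)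
    {P : ℝ} (hP : 0 < P)
    (hPoin : ∀ g : X n → ℝ, ContDiff ℝ ∞ g → HasCompactSupport g →
      (∫ x, g x ^ 2 * ρ x) - (∫ x, g x * ρ x) ^ 2 ≤ P * ∫ x, gradSq g x * ρ x)
    {g : X n → ℝ} (hg : ContDiff ℝ ∞ g) (hgc : HasCompactSupport g) :
    (∫ x, g x ^ 2 * log (g x ^ 2) * ρ x) - (∫ x, g x ^ 2 * ρ x) * log (∫ x, g x ^ 2 * ρ x) ≤
      (201 * (a ^ 4 * n * P) ^ ((1 : ℝ) / 3) + 288 * a ^ 2 + 6 * P) * ∫ x, gradSq g x * ρ x :=
  lsi_density n_pos (bakryEmery_holds n) hρ ha hc hi hs hP hPoin hg hgc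

end Vale.Agent.Lib.P245
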